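import Vale.Agent.P064.MathlibUsed
import Mathlib.MeasureTheory.Constructions.UnitInterval
import Mathlib.MeasureTheory.Integral.Pi

/-!
The complete graph on `Fin n` with independent edge weights, uniform in `[0,1]`: the measure
`volume` on `Edge n → unitInterval` is the product of the uniform distributions.
-/

namespace Vale.Agent.N064B

open SimpleGraph MeasureTheory

/-- The edges of the complete graph on `Fin n`. -/
abbrev Edge (n : ℕ) : Type := {e : Sym2 (Fin n) // ¬ e.IsDiag}

/-- The graph of the edges of weight at most `p`. For independent uniform weights every edge is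
present independently with probability `p`: this is `G(n,p)`. -/
def below {n : ℕ} (p : ℝ) (ξ : Edge n → unitInterval) : SimpleGraph (Fin n) :=
  fromEdgeSet {e | ∃ h : ¬ e.IsDiag, (ξ ⟨e, h⟩ : ℝ) ≤ p}

/-- The probability that `G(n,p)` has a subgraph isomorphic to `H`. -/
noncomputable def probCopy {W : Type*} (n : ℕ) (H : SimpleGraph W) (p : ℝ) : ℝ :=
  (volume : Measure (Edge n → unitInterval)).real {ξ | 0 < (below p ξ).copyCount H}

/-- The expected number of subgraphs of `G(n,p)` isomorphic to `F`. -/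
noncomputable def expCopy {W : Type*} (n : ℕ) (F : SimpleGraph W) (p : ℝ) : ℝ :=
  ∫ ξ : Edge n → unitInterval, ((below p ξ).copyCount F : ℝ)

/-- The set whose minimum is `p_c(n,H)`. -/
def pcSet {W : Type*} (n : ℕ) (H : SimpleGraph W) : Set ℝ :=
  {p | 0 ≤ p ∧ p ≤ 1 ∧ 1 / 2 ≤ probCopy n H p}

/-- The set whose minimum is `p_E(n,H)`. -/
def pESet {W : Type*} (n : ℕ) (H : SimpleGraph W) : Set ℝ :=
  {p | 0 ≤ p ∧ p ≤ 1 ∧ ∀ F : H.Subgraph, 1 / 2 ≤ expCopy n F.coe p}

/-- `p_c(n,H)`. -/
noncomputable def pc {W : Type*} (n : ℕ) (H : SimpleGraph W) : ℝ := sInf (pcSet n H)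

/-- `p_E(n,H)`. -/
noncomputable def pE {W : Type*} (n : ℕ) (H : SimpleGraph W) : ℝ := sInf (pESet n H)

open Classical in
/-- The least value, over the copies of `H` in the complete graph on `Fin n`, of the sum of
`φ (ξ e)` over the edges `e` of the copy. -/
noncomputable def minSum {W : Type*} {n : ℕ} (H : SimpleGraph W) (φ : ℝ → ℝ)
    (ξ : Edge n → unitInterval) : ℝ :=
  ⨅ f : W ↪ Fin n, ∑ e : Edge n, if e.1 ∈ (H.map f).edgeSet then φ (ξ e) else 0

end Vale.Agent.N064B
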