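import Vale.Agent.N064B.Iter

/-!
P064 (helper70): one member of the family which is good at all scales.
-/

set_option linter.all false

namespace Vale.Agent.N064B

open Finset MeasureTheory Vale.Agent.P064 Vale.Agent.P064.Multi Vale.Agent.P064.H825
open scoped Pointwise

variable {X : Type*} [Fintype X] [DecidableEq X]

/-- least sum of `φ` of the weights over a member of `A` -/
noncomputable def mg (φ : ℝ → ℝ) (A : Finset (Finset X)) (ξ : X → unitInterval) : ℝ :=
  ⨅ S : A, ∑ x ∈ S.1, φ (ξ x)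

theorem mg_id (A : Finset (Finset X)) : mg id A = mw A := rfl

theorem mg_le (φ : ℝ → ℝ) {A : Finset (Finset X)} {S : Finset X} (hS : S ∈ A)
    (ξ : X → unitInterval) : mg φ A ξ ≤ ∑ x ∈ S, φ (ξ x) :=
  ciInf_le (f := fun S : A => ∑ x ∈ S.1, φ (ξ x)) (Set.finite_range _).bddBelow ⟨S, hS⟩

theorem exists_mg (φ : ℝ → ℝ) {A : Finset (Finset X)} (hA : A.Nonempty) (ξ : X → unitInterval) :
    ∃ S ∈ A, ∑ x ∈ S, φ (ξ x) = mg φ A ξ := by
  have : Nonempty A := hA.to_subtype
  obtain ⟨S, hS⟩ := exists_eq_ciInf_of_finite (f := fun S : A => ∑ x ∈ S.1, φ (ξ x))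
  exact ⟨S.1, S.2, hS⟩

/-- the exponential profile -/
noncomputable def ex (c : ℝ) : ℝ → ℝ := fun x => Real.exp (x / c)

theorem me_nonneg (c : ℝ) (A : Finset (Finset X)) (ξ : X → unitInterval) : 0 ≤ mg (ex c) A ξ :=
  Real.iInf_nonneg fun _ => Finset.sum_nonneg fun x _ => (Real.exp_pos _).le

theorem me_le_card {c : ℝ} (hc : 0 < c) {A : Finset (Finset X)} {ℓ : ℕ}
    (hA : ∀ S ∈ A, S.card ≤ ℓ) (ξ : X → unitInterval) :
    mg (ex c) A ξ ≤ ℓ * Real.exp (1 / c) := by
  rcases A.eq_empty_or_nonempty with h | ⟨S, hS⟩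
  · subst h
    unfold mg
    rw [Real.iInf_of_isEmpty]
    positivity
  · refine (mg_le _ hS ξ).trans ?_
    calc ∑ x ∈ S, ex c (ξ x) ≤ ∑ x ∈ S, Real.exp (1 / c) :=
          Finset.sum_le_sum fun x _ =>
            Real.exp_le_exp.2 (div_le_div_of_nonneg_right (ξ x).2.2 hc.le)
      _ = S.card * Real.exp (1 / c) := by rw [Finset.sum_const, nsmul_eq_mul]
      _ ≤ _ := by
          refine mul_le_mul_of_nonneg_right ?_ (Real.exp_pos _).le
          exact_mod_cast hA S hS

theorem measurable_me (c : ℝ) (A : Finset (Finset X)) : Measurable (mg (ex c) A) := by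
  unfold mg
  refine Measurable.iInf fun S => ?_
  refine Finset.measurable_sum _ fun x _ => ?_
  exact Real.measurable_exp.comp
    ((measurable_subtype_coe.comp (measurable_pi_apply x)).div_const c)

theorem me_bdd {c : ℝ} (hc : 0 < c) (A : Finset (Finset X)) (ξ : X → unitInterval) :
    |mg (ex c) A ξ| ≤ Fintype.card X * Real.exp (1 / c) := by
  rw [abs_of_nonneg (me_nonneg c A ξ)]
  exact me_le_card hc (fun S _ => card_le_univ S) ξ

theorem integrable_me {c : ℝ} (hc : 0 < c) (A : Finset (Finset X)) :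
    Integrable (mg (ex c) A) (volume : Measure (X → unitInterval)) :=
  integrable_bdd _ (measurable_me c A) (me_bdd hc A)

theorem ex_phi (w : unitInterval) (hw : (0 : ℝ) < w) (W : Finset X) (η : X → unitInterval)
    (x : X) : ex (4 * w) (phi w W η x) ≤
      Real.exp (1 / 4) * if x ∈ W then 1 else ex (4 * w) (η x) := by
  have hc : (0 : ℝ) < 4 * w := by positivity
  have h0 := (η x).2.1
  have h1 := (η x).2.2
  have hw1 := w.2.2
  unfold phi ex
  by_cases hx : x ∈ W
  · rw [if_pos hx, if_pos hx, lo_val, mul_one]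
    refine Real.exp_le_exp.2 ?_
    rw [div_le_iff₀ hc]
    nlinarith
  · rw [if_neg hx, if_neg hx, hi_val, ← Real.exp_add]
    refine Real.exp_le_exp.2 ?_
    rw [div_le_iff₀ hc]
    have : (1 / 4 + (η x : ℝ) / (4 * w)) * (4 * w) = w + η x := by field_simp
    rw [this]
    nlinarith

theorem one_le_ex {c : ℝ} (hc : 0 < c) (y : unitInterval) : 1 ≤ ex c y :=
  Real.one_le_exp (div_nonneg y.2.1 hc.le)

/-- one step, for a fixed set `W` -/
theorem step_good (w : unitInterval) (hw : (0 : ℝ) < w) (W : Finset X) {A B : Finset (Finset X)}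
    {ℓ : ℕ} (hA : ∀ S ∈ A, S.card ≤ ℓ) (hB : B.Nonempty) (h : ∀ T ∈ B, ∃ S ∈ A, S \ W ⊆ T) :
    ∫ η, mg (ex (4 * w)) A (phi w W η) ≤
      Real.exp (1 / 4) * (ℓ + ∫ η, mg (ex (4 * w)) B η) := by
  have hc : (0 : ℝ) < 4 * w := by positivity
  have e1 : ∫ η, Real.exp (1 / 4) * ((ℓ : ℝ) + mg (ex (4 * w)) B η) =
      Real.exp (1 / 4) * (ℓ + ∫ η, mg (ex (4 * w)) B η) := by
    rw [integral_const_mul, integral_add (integrable_const _) (integrable_me hc B)]
    simp
  rw [← e1]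
  refine integral_mono ?_ (((integrable_const _).add (integrable_me hc B)).const_mul _) fun η => ?_
  · exact integrable_bdd _ ((measurable_me _ A).comp (measurable_phi w W))
      fun η => me_bdd hc A _
  · obtain ⟨T, hT, e⟩ := exists_mg (ex (4 * w)) hB η
    obtain ⟨S, hS, hST⟩ := h T hT
    refine (mg_le _ hS (phi w W η)).trans ?_
    refine (Finset.sum_le_sum fun x _ => ex_phi w hw W η x).trans ?_
    rw [← Finset.mul_sum]
    refine mul_le_mul_of_nonneg_left ?_ (Real.exp_pos _).le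
    have h2 : (S.card : ℝ) ≤ ℓ := by exact_mod_cast hA S hS
    calc ∑ x ∈ S, (if x ∈ W then 1 else ex (4 * w) (η x))
        ≤ ∑ x ∈ S, (1 + if x ∉ W then ex (4 * w) (η x) else 0) := by
          refine Finset.sum_le_sum fun x _ => ?_
          by_cases hx : x ∈ W
          · rw [if_pos hx, if_neg (not_not.2 hx), add_zero]
          · rw [if_neg hx, if_pos hx]
            linarith
      _ = S.card + ∑ x ∈ S \ W, ex (4 * w) (η x) := by
          rw [Finset.sum_add_distrib, Finset.sum_const, nsmul_eq_mul, mul_one,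
            ← Finset.sum_filter, Finset.sdiff_eq_filter]
      _ ≤ ℓ + mg (ex (4 * w)) B η := by
          have := Finset.sum_le_sum_of_subset_of_nonneg (f := fun x => ex (4 * w) (η x)) hST
            fun x _ _ => (Real.exp_pos _).le
          rw [← e]
          linarith

theorem step_bad (w : unitInterval) (hw : (0 : ℝ) < w) (W : Finset X) {A : Finset (Finset X)}
    (hA : A.Nonempty) :
    ∫ η, mg (ex (4 * w)) A (phi w W η) ≤ Real.exp (1 / 4) * ∫ η, mg (ex (4 * w)) A η := by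
  have hc : (0 : ℝ) < 4 * w := by positivity
  rw [← integral_const_mul]
  refine integral_mono ?_ ((integrable_me hc A).const_mul _) fun η => ?_
  · exact integrable_bdd _ ((measurable_me _ A).comp (measurable_phi w W))
      fun η => me_bdd hc A _
  · obtain ⟨S, hS, e⟩ := exists_mg (ex (4 * w)) hA η
    refine (mg_le _ hS (phi w W η)).trans ?_
    refine (Finset.sum_le_sum fun x _ => ex_phi w hw W η x).trans ?_
    rw [← Finset.mul_sum]
    refine mul_le_mul_of_nonneg_left ?_ (Real.exp_pos _).le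
    rw [← e]
    refine Finset.sum_le_sum fun x _ => ?_
    split_ifs
    · exact one_le_ex hc _
    · exact le_rfl

theorem exp_quarter_le : Real.exp (1 / 4) ≤ 13 / 10 := by
  have h1 : Real.exp (1 / 4) ^ 4 = Real.exp 1 := by
    rw [← Real.exp_nat_mul]
    norm_num
  have h2 := Real.exp_one_lt_d9
  by_contra hcon
  have h3 : (13 / 10 : ℝ) ^ 4 ≤ Real.exp (1 / 4) ^ 4 :=
    pow_le_pow_left₀ (by norm_num) (not_le.1 hcon).le 4
  rw [h1] at h3
  norm_num at h3
  linarith

theorem big_le {p w : ℝ} (hp : 0 < p) (hpw : 64 * p ≤ w) (hw1 : w ≤ 1) {ℓ : ℕ}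
    {A : Finset (Finset X)} (hA : ∀ S ∈ A, S.card ≤ ℓ) :
    ES w univ (fun W => ∑ t ∈ Ioc (ℓ / 2) ℓ,
      (((frs A W).filter fun T => T.card = t).card : ℝ) * p ^ t) ≤ 1 / 8 * (1 / 4) ^ ℓ := by
  have hw0 : (0 : ℝ) < w := by linarith
  have hr0 : 0 ≤ p / w := by positivity
  have hr : p / w ≤ 1 / 64 := by
    rw [div_le_div_iff₀ hw0 (by norm_num)]
    linarith
  refine le_trans ?_ (N064.err2 hr0 hr ℓ)
  rw [ES_sum]
  refine Finset.sum_le_sum fun t _ => ?_
  have hcm : ES w (univ : Finset X) (fun W =>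
      (((frs A W).filter fun T => T.card = t).card : ℝ) * p ^ t) =
      ES w univ (fun W => p ^ t * (((frs A W).filter fun T => T.card = t).card : ℝ)) :=
    ES_congr _ _ fun W _ => mul_comm _ _
  rw [hcm, ES_mul]
  calc p ^ t * ES w univ (fun W => (((frs A W).filter fun T => T.card = t).card : ℝ))
      ≤ p ^ t * ((ℓ.choose t : ℝ) * (1 / w) ^ t) :=
        mul_le_mul_of_nonneg_left (count_big hA hw0 hw1 t) (by positivity)
    _ = (ℓ.choose t : ℝ) * (p / w) ^ t := by
        rw [div_eq_mul_one_div p w, mul_pow]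
        ring

/-- **the iteration** -/
theorem prof {p : ℝ} (w : unitInterval) (hp : 0 < p) (hpw : 64 * p ≤ w) (hw1 : (w : ℝ) < 1) :
    ∀ (ℓ : ℕ) (A : Finset (Finset X)), (∀ S ∈ A, S.card ≤ ℓ) →
      ∑ j ∈ Ioc 0 ℓ, (1 / 2 : ℝ) ^ j < cost p A → ∫ ξ, mg (ex (4 * w)) A ξ ≤ 5 * ℓ := by
  have hw0 : (0 : ℝ) < w := by linarith
  have hc : (0 : ℝ) < 4 * w := by positivity
  intro ℓ
  induction ℓ using Nat.strong_induction_on with
  | _ ℓ ih =>
  intro A hA hcost
  rcases Nat.eq_zero_or_pos ℓ with h0 | h0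
  · subst h0
    have h1 : ∫ ξ, mg (ex (4 * w)) A ξ ≤ ∫ _ : X → unitInterval, (0 : ℝ) := by
      refine integral_mono (integrable_me hc A) (integrable_const _) fun ξ => ?_
      simpa using me_le_card hc hA ξ
    simpa using h1
  set M := ∫ ξ, mg (ex (4 * w)) A ξ with hM
  have hM0 : 0 ≤ M := integral_nonneg (me_nonneg _ A)
  set big : Finset X → ℝ := fun W => ∑ t ∈ Ioc (ℓ / 2) ℓ,
    (((frs A W).filter fun T => T.card = t).card : ℝ) * p ^ t with hbig
  have hbig0 : ∀ W, 0 ≤ big W := fun W =>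
    Finset.sum_nonneg fun t _ => by positivity
  have hsum : ∑ j ∈ Ioc 0 (ℓ / 2), (1 / 2 : ℝ) ^ j + (1 / 2) ^ ℓ ≤
      ∑ j ∈ Ioc 0 ℓ, (1 / 2 : ℝ) ^ j := by
    have h1 : ℓ ∉ Ioc 0 (ℓ / 2) := by
      rw [mem_Ioc]
      omega
    rw [add_comm, ← Finset.sum_insert h1]
    refine Finset.sum_le_sum_of_subset_of_nonneg ?_ fun _ _ _ => by positivity
    intro j hj
    rw [mem_insert, mem_Ioc] at hj
    rw [mem_Ioc]
    omega
  have hAne : A.Nonempty := nonempty_of_cost
    (lt_of_le_of_lt (Finset.sum_nonneg fun _ _ => by positivity) hcost)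
  have he := exp_quarter_le
  have he0 := Real.exp_pos (1 / 4)
  have hℓ : (0 : ℝ) ≤ ℓ := Nat.cast_nonneg _
  have h2 : ∀ W : Finset X, ∫ η, mg (ex (4 * w)) A (phi w W η) ≤
      13 / 10 * (7 / 2 * ℓ) + (13 / 10 * 2 ^ ℓ * M) * big W := by
    intro W
    by_cases hs : big W ≤ (1 / 2) ^ ℓ
    · have h3 := cost_step hA hp.le (ℓ / 2) W
      have h3' : ∑ j ∈ Ioc 0 (ℓ / 2), (1 / 2 : ℝ) ^ j < cost p (fr (ℓ / 2) A W) := by
        change cost p A ≤ cost p (fr (ℓ / 2) A W) + big W at h3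
        linarith
      have h4 := ih (ℓ / 2) (by omega) (fr (ℓ / 2) A W) (fun S hS => (mem_filter.1 hS).2) h3'
      have h5 := step_good w hw0 W hA (nonempty_of_cost
        (lt_of_le_of_lt (Finset.sum_nonneg fun _ _ => by positivity) h3')) (by
          intro T hT
          obtain ⟨S', h1, _, h3⟩ := frs_mem (mem_filter.1 hT).1
          exact ⟨S', h1, h3.ge⟩)
      have h6 : 0 ≤ (13 / 10 * 2 ^ ℓ * M) * big W := mul_nonneg (by positivity) (hbig0 W)
      have h7 : ((ℓ / 2 : ℕ) : ℝ) ≤ ℓ / 2 := Nat.cast_div_le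
      have h8 : Real.exp (1 / 4) * (ℓ + ∫ η, mg (ex (4 * w)) (fr (ℓ / 2) A W) η) ≤
          Real.exp (1 / 4) * (7 / 2 * ℓ) := mul_le_mul_of_nonneg_left (by linarith) he0.le
      have h9 : Real.exp (1 / 4) * (7 / 2 * ℓ) ≤ 13 / 10 * (7 / 2 * ℓ) :=
        mul_le_mul_of_nonneg_right he (by positivity)
      linarith
    · rw [not_le] at hs
      have h5 := step_bad w hw0 W hAne
      have h6 : 1 ≤ 2 ^ ℓ * big W := by
        have h7 : (2 : ℝ) ^ ℓ * (1 / 2) ^ ℓ = 1 := by rw [← mul_pow]; norm_num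
        rw [← h7]
        exact mul_le_mul_of_nonneg_left hs.le (by positivity)
      have h8 : 13 / 10 * M * 1 ≤ 13 / 10 * M * (2 ^ ℓ * big W) :=
        mul_le_mul_of_nonneg_left h6 (by positivity)
      have h9 : Real.exp (1 / 4) * M ≤ 13 / 10 * M := mul_le_mul_of_nonneg_right he hM0
      rw [← hM] at h5
      nlinarith
  have h3 : ES (w : ℝ) univ big ≤ 1 / 8 * (1 / 4) ^ ℓ := big_le hp hpw hw1.le hA
  have h5 : M ≤ 13 / 10 * (7 / 2 * ℓ) + (13 / 10 * 2 ^ ℓ * M) * ES (w : ℝ) univ big := by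
    calc M = ES (w : ℝ) univ fun W : Finset X => ∫ η, mg (ex (4 * w)) A (phi w W η) :=
          integral_split w hw0 hw1 (measurable_me _ A) (me_bdd hc A)
      _ ≤ ES (w : ℝ) univ fun W : Finset X =>
          13 / 10 * (7 / 2 * ℓ) + (13 / 10 * 2 ^ ℓ * M) * big W :=
          ES_mono hw0.le hw1.le _ fun W _ => h2 W
      _ = _ := by rw [ES_add, ES_const, ES_mul]
  have h6 : (1 / 2 : ℝ) ^ ℓ ≤ (1 / 2) ^ 1 := pow_le_pow_of_le_one (by norm_num) (by norm_num) h0
  have h7 : (13 / 10 * 2 ^ ℓ * M) * ES (w : ℝ) univ big ≤ 13 / 160 * M := by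
    calc (13 / 10 * 2 ^ ℓ * M) * ES (w : ℝ) univ big
        ≤ (13 / 10 * 2 ^ ℓ * M) * (1 / 8 * (1 / 4) ^ ℓ) :=
          mul_le_mul_of_nonneg_left h3 (by positivity)
      _ = 13 / 80 * M * (2 ^ ℓ * (1 / 4) ^ ℓ) := by ring
      _ = 13 / 80 * M * (1 / 2) ^ ℓ := by
          rw [← mul_pow]
          norm_num
      _ ≤ 13 / 80 * M * (1 / 2) ^ 1 := mul_le_mul_of_nonneg_left h6 (by positivity)
      _ = _ := by ring
  linarith

theorem mg_mono_c {c c' : ℝ} (hc : 0 < c) (h : c ≤ c') {A : Finset (Finset X)} (hA : A.Nonempty)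
    (ξ : X → unitInterval) : mg (ex c') A ξ ≤ mg (ex c) A ξ := by
  obtain ⟨S, hS, e⟩ := exists_mg (ex c) hA ξ
  rw [← e]
  refine (mg_le _ hS ξ).trans (Finset.sum_le_sum fun x _ => ?_)
  exact Real.exp_le_exp.2 (div_le_div_of_nonneg_left (ξ x).2.1 hc h)

/-- the exponential profile for the translates -/
theorem act_prof {G : Type*} [Group G] [Fintype G] [DecidableEq G] [MulAction G X]
    (H : Finset X) (q : ℝ) (hq0 : 0 < q)
    (hq : ∀ F ⊆ H, F.Nonempty → ((univ.filter fun g : G => g • F = F).card : ℝ) ≤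
      Fintype.card G * q ^ F.card) {c : ℝ} (hcq : 2 ^ 67 * q ≤ c) :
    ∫ ξ, mg (ex c) (univ.image fun g : G => g • H) ξ ≤ 5 * H.card := by
  set A : Finset (Finset X) := univ.image fun g : G => g • H with hA
  have hAc : ∀ S ∈ A, S.card ≤ H.card := by
    intro S hS
    obtain ⟨g, _, rfl⟩ := mem_image.1 hS
    rw [Finset.card_smul_finset]
  have hc0 : (0 : ℝ) < 2 ^ 67 * q := by positivity
  have hc : 0 < c := hc0.trans_le hcq
  rcases lt_or_ge (2 ^ 65 * q) 1 with h | h
  · have h1 := prof (X := X) (p := 2 ^ 59 * q) ⟨2 ^ 65 * q, by positivity, h.le⟩ (by positivity)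
      (le_of_eq (by change _ = 2 ^ 65 * q; ring)) h H.card A hAc
      ((N064.geo_lt 0 H.card).trans_le (cost_ge H q hq0 hq))
    have e : (4 : ℝ) * (2 ^ 65 * q) = 2 ^ 67 * q := by ring
    change ∫ ξ, mg (ex (4 * (2 ^ 65 * q))) A ξ ≤ _ at h1
    rw [e] at h1
    refine le_trans (integral_mono (integrable_me hc A) (integrable_me hc0 A) fun ξ => ?_) h1
    exact mg_mono_c hc0 hcq (Finset.univ_nonempty.image _) ξ
  · have h1 : ∫ ξ, mg (ex c) A ξ ≤ ∫ _ : X → unitInterval, (5 * H.card : ℝ) := by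
      refine integral_mono (integrable_me hc A) (integrable_const _) fun ξ => ?_
      refine (me_le_card hc hAc ξ).trans ?_
      have h2 : Real.exp (1 / c) ≤ Real.exp (1 / 4) := by
        refine Real.exp_le_exp.2 (one_div_le_one_div_of_le (by norm_num) ?_)
        linarith
      have h3 := exp_quarter_le
      have h4 : (0 : ℝ) ≤ H.card := Nat.cast_nonneg _
      change _ ≤ (5 * H.card : ℝ)
      nlinarith
    simpa using h1

end Vale.Agent.N064B
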