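import Vale.Agent.N064B.Low
import Vale.Agent.N064B.Prof
import Vale.Agent.N064.Low

/-!
P064 (helper70): graphs with uniform edge weights.
-/

set_option linter.all false

namespace Vale.Agent.N064B

open SimpleGraph Finset MeasureTheory Vale.Agent.P064 Vale.Agent.P064.Multi Vale.Agent.P064.H825
open scoped Pointwise

variable {n : ℕ}

theorem below_eq (p : ℝ) (ξ : Edge n → unitInterval) :
    below p ξ = toG (univ.filter fun e : Pair n => (ξ e : ℝ) ≤ p) := by
  ext a b
  unfold below
  rw [fromEdgeSet_adj]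
  constructor
  · rintro ⟨⟨h, h1⟩, h2⟩
    exact ⟨h2, mem_filter.2 ⟨mem_univ _, h1⟩⟩
  · rintro ⟨h2, h1⟩
    exact ⟨⟨by simpa using h2, (mem_filter.1 h1).2⟩, h2⟩

theorem below_preimage (p : unitInterval) (Z : Finset (Pair n)) :
    below (p : ℝ) ⁻¹' {toG Z} =
      Set.univ.pi fun e : Edge n => if e ∈ Z then Set.Iic p else Set.Ioi p := by
  ext ξ
  simp only [Set.mem_preimage, Set.mem_singleton_iff, Set.mem_univ_pi]
  rw [below_eq]
  constructor
  · intro h e
    have h1 : (univ.filter fun e : Pair n => (ξ e : ℝ) ≤ p) = Z := (gEquiv n).injective h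
    rw [← h1]
    split_ifs with h2
    · exact (mem_filter.1 h2).2
    · rw [mem_filter, not_and] at h2
      exact not_le.1 (h2 (mem_univ _))
  · intro h
    congr 1
    ext e
    have h1 := h e
    rw [mem_filter]
    split_ifs at h1 with h2
    · exact ⟨fun _ => h2, fun _ => ⟨mem_univ _, h1⟩⟩
    · exact ⟨fun h3 => absurd h3.2 (not_le.2 h1), fun h3 => absurd h3 h2⟩

theorem measurable_below (p : unitInterval) :
    Measurable (below (p : ℝ) : (Edge n → unitInterval) → SimpleGraph (Fin n)) := by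
  refine measurable_to_countable' fun G => ?_
  rw [← toG_ofG G, below_preimage]
  refine MeasurableSet.univ_pi fun e => ?_
  split_ifs
  · exact measurableSet_Iic
  · exact measurableSet_Ioi

/-- the law of `below p` is the binomial random graph -/
theorem map_below (p : unitInterval) :
    Measure.map (below (p : ℝ)) (volume : Measure (Edge n → unitInterval)) =
      binomialRandom (Fin n) p := by
  refine Measure.ext_of_singleton fun G => ?_
  rw [← toG_ofG G, Measure.map_apply (measurable_below p) (measurableSet_singleton _),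
    below_preimage, volume_pi, Measure.pi_pi,
    ← ofReal_measureReal (μ := binomialRandom (Fin n) p) (measure_ne_top _ _), real_singleton]
  unfold wtS
  have h0 := p.2.1
  have h1 := p.2.2
  rw [ENNReal.ofReal_prod_of_nonneg (fun x _ => by split_ifs <;> linarith)]
  refine Finset.prod_congr rfl fun e _ => ?_
  split_ifs
  · exact unitInterval.volume_Iic p
  · exact unitInterval.volume_Ioi p

theorem probCopy_eq' {W : Type*} (H : SimpleGraph W) (p : unitInterval) :
    N064B.probCopy n H p = P064.probCopy n H p := by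
  unfold N064B.probCopy P064.probCopy
  rw [← map_below, map_measureReal_apply (measurable_below p)
    (Set.Finite.measurableSet (Set.toFinite _))]
  rfl

theorem expCopy_eq' {W : Type*} (H : SimpleGraph W) (p : unitInterval) :
    N064B.expCopy n H p = P064.expCopy n H p := by
  unfold N064B.expCopy P064.expCopy
  rw [← map_below, integral_map (measurable_below p).aemeasurable
    (measurable_of_finite _).aestronglyMeasurable]

theorem pcSet_eq {W : Type*} (H : SimpleGraph W) :
    pcSet n H = {x : ℝ | ∃ p : unitInterval, (p : ℝ) = x ∧ 1 / 2 ≤ P064.probCopy n H p} := by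
  ext x
  constructor
  · rintro ⟨h0, h1, h⟩
    exact ⟨⟨x, h0, h1⟩, rfl, (probCopy_eq' H ⟨x, h0, h1⟩) ▸ h⟩
  · rintro ⟨p, rfl, h⟩
    exact ⟨p.2.1, p.2.2, (probCopy_eq' H p).symm ▸ h⟩

theorem pESet_eq {W : Type*} (H : SimpleGraph W) :
    pESet n H = {x : ℝ | ∃ p : unitInterval, (p : ℝ) = x ∧
      ∀ F : H.Subgraph, 1 / 2 ≤ P064.expCopy n F.coe p} := by
  ext x
  constructor
  · rintro ⟨h0, h1, h⟩
    exact ⟨⟨x, h0, h1⟩, rfl, fun F => (expCopy_eq' F.coe ⟨x, h0, h1⟩) ▸ h F⟩
  · rintro ⟨p, rfl, h⟩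
    exact ⟨p.2.1, p.2.2, fun F => (expCopy_eq' F.coe p).symm ▸ h F⟩

theorem pc_eq {W : Type*} (H : SimpleGraph W) : N064B.pc n H = P064.pc n H := by
  unfold N064B.pc
  rw [pcSet_eq]
  rfl

theorem pE_eq {W : Type*} (H : SimpleGraph W) : N064B.pE n H = P064.pE n H := by
  unfold N064B.pE
  rw [pESet_eq]
  rfl

theorem pc_least {W : Type*} (H : SimpleGraph W) (j : W ↪ Fin n) :
    IsLeast (pcSet n H) (N064B.pc n H) := by
  rw [pc_eq, pcSet_eq]
  exact pc_isLeast H j

theorem pE_least {W : Type*} [Fintype W] (H : SimpleGraph W) (j : W ↪ Fin n) :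
    IsLeast (pESet n H) (N064B.pE n H) := by
  rw [pE_eq, pESet_eq]
  exact pE_isLeast H j

/-! ### the least weight of a copy -/

open Classical in
theorem sum_img {W : Type*} (H : SimpleGraph W) (φ : ℝ → ℝ) (f : W ↪ Fin n)
    (ξ : Edge n → unitInterval) :
    (∑ e : Edge n, if e.1 ∈ (H.map f).edgeSet then φ (ξ e) else 0) =
      ∑ e ∈ img H f, φ (ξ e) := by
  rw [← Finset.sum_filter]
  refine Finset.sum_congr ?_ fun _ _ => rfl
  ext e
  unfold img
  rw [mem_ofG, mem_filter]
  simp

theorem minSum_eq' {W : Type*} (H : SimpleGraph W) (φ : ℝ → ℝ) (ξ : Edge n → unitInterval) :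
    minSum H φ ξ = ⨅ f : W ↪ Fin n, ∑ e ∈ img H f, φ (ξ e) := by
  unfold minSum
  exact iInf_congr fun f => sum_img H φ f ξ

theorem exists_minSum {W : Type*} [Finite W] (H : SimpleGraph W) (φ : ℝ → ℝ) (j : W ↪ Fin n)
    (ξ : Edge n → unitInterval) : ∃ f : W ↪ Fin n, ∑ e ∈ img H f, φ (ξ e) = minSum H φ ξ := by
  have : Nonempty (W ↪ Fin n) := ⟨j⟩
  rw [minSum_eq']
  exact exists_eq_ciInf_of_finite

theorem exists_minWeight {W : Type*} [Finite W] (H : SimpleGraph W) (j : W ↪ Fin n)
    (ξ : Edge n → unitInterval) : ∃ f : W ↪ Fin n, ∑ e ∈ img H f, (ξ e : ℝ) = minSum H id ξ :=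
  exists_minSum H id j ξ

theorem minSum_eq {W : Type*} [Finite W] (H : SimpleGraph W) (φ : ℝ → ℝ) (j : W ↪ Fin n) :
    (minSum H φ : (Edge n → unitInterval) → ℝ) =
      mg φ (univ.image fun g : Equiv.Perm (Fin n) => g • img H j) := by
  funext ξ
  apply le_antisymm
  · obtain ⟨S, hS, e⟩ := exists_mg φ
      (A := univ.image fun g : Equiv.Perm (Fin n) => g • img H j) (Finset.univ_nonempty.image _) ξ
    obtain ⟨g, _, rfl⟩ := mem_image.1 hS
    rw [← e, minSum_eq', smul_img]
    exact ciInf_le (f := fun f : W ↪ Fin n => ∑ e ∈ img H f, φ (ξ e))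
      (Set.finite_range _).bddBelow _
  · obtain ⟨f, e⟩ := exists_minSum H φ j ξ
    obtain ⟨g, hg⟩ := Equiv.Perm.exists_extending_pair j f j.injective f.injective
    have h1 : g • img H j = img H f := by
      rw [smul_img]
      congr 1
      ext a
      exact congrArg Fin.val (hg a)
    rw [← e, ← h1]
    exact mg_le φ (mem_image_of_mem _ (mem_univ g)) ξ

theorem minWeight_eq {W : Type*} [Finite W] (H : SimpleGraph W) (j : W ↪ Fin n) :
    (minSum H id : (Edge n → unitInterval) → ℝ) =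
      mw (univ.image fun g : Equiv.Perm (Fin n) => g • img H j) :=
  minSum_eq H id j

theorem integrable_mw {X : Type*} [Fintype X] [DecidableEq X] (A : Finset (Finset X)) :
    Integrable (mw A) (volume : Measure (X → unitInterval)) := by
  refine integrable_bdd _ (measurable_mw A) (B := Fintype.card X) fun ξ => ?_
  rw [abs_of_nonneg (mw_nonneg A ξ)]
  exact mw_le_card (fun S _ => card_le_univ S) ξ

/-- tail and mean for translates -/
theorem act_bounds {X G : Type*} [Fintype X] [DecidableEq X] [Group G] [Fintype G]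
    [DecidableEq G] [MulAction G X] (H : Finset X) (q : ℝ) (hq0 : 0 < q)
    (hq : ∀ F ⊆ H, F.Nonempty → ((univ.filter fun g : G => g • F = F).card : ℝ) ≤
      Fintype.card G * q ^ F.card) {c : ℝ} (hc : 3 * 2 ^ 65 * q ≤ c) :
    (∀ t : ℝ, 0 ≤ t → (volume : Measure (X → unitInterval)).real
      {ξ | c * (H.card + t) ≤ mw (univ.image fun g : G => g • H) ξ} ≤ Real.exp (-t)) ∧
    ∫ ξ, mw (univ.image fun g : G => g • H) ξ ≤ c * H.card := by
  have h1 := act_mgf H q hq0 hq
  have hc0 : (0 : ℝ) < 2 ^ 66 * q := by positivity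
  have hH : (0 : ℝ) ≤ H.card := Nat.cast_nonneg _
  refine ⟨fun t ht => ?_, ?_⟩
  · refine le_trans (measureReal_mono (fun ξ hξ => ?_) (measure_ne_top _ _))
      (tail_of_mgf volume hc0 (integrable_emw _ hc0) h1 t)
    have h2 : c * (H.card + t) ≤ mw (univ.image fun g : G => g • H) ξ := hξ
    change 2 ^ 66 * q * (3 * H.card / 2 + t) ≤ _
    have h3 : 3 * 2 ^ 65 * q * (H.card + t) ≤ c * (H.card + t) :=
      mul_le_mul_of_nonneg_right hc (by positivity)
    have h4 : 0 ≤ q * t := by positivity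
    nlinarith
  · refine (mean_of_mgf volume hc0 (integrable_mw _) (integrable_emw _ hc0) h1).trans ?_
    have h3 : 3 * 2 ^ 65 * q * H.card ≤ c * H.card := mul_le_mul_of_nonneg_right hc hH
    linarith

theorem graph_upper {W : Type*} [Fintype W] {H : SimpleGraph W} (hH : H ≠ ⊥) (j : W ↪ Fin n)
    {C : ℝ} (hC : 3 * 2 ^ 66 ≤ C) :
    (∀ t : ℝ, 0 ≤ t → (volume : Measure (Edge n → unitInterval)).real
      {ξ | C * N064B.pE n H * (H.edgeSet.ncard + t) ≤ minSum H id ξ} ≤ Real.exp (-t)) ∧
    ∫ ξ : Edge n → unitInterval, minSum H id ξ ≤ C * N064B.pE n H * H.edgeSet.ncard := by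
  classical
  have hpos := Act.pE_pos' hH j
  have h := act_bounds (G := Equiv.Perm (Fin n)) (img H j) (2 * P064.pE n H) (by positivity)
    (fun F hF hne => stab_pE j F hF hne) (c := C * P064.pE n H) (by nlinarith)
  rw [card_img, ← minWeight_eq] at h
  rw [pE_eq]
  exact h

theorem graph_int {W : Type*} [Finite W] (H : SimpleGraph W) (j : W ↪ Fin n) :
    Integrable (minSum H id) (volume : Measure (Edge n → unitInterval)) := by
  rw [minWeight_eq H j]
  exact integrable_mw _

theorem graph_prof {W : Type*} [Fintype W] {H : SimpleGraph W} (hH : H ≠ ⊥) (j : W ↪ Fin n)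
    {C : ℝ} (hC : 2 ^ 68 ≤ C) :
    Integrable (minSum H fun x => Real.exp (x / (C * N064B.pE n H)))
      (volume : Measure (Edge n → unitInterval)) ∧
    ∫ ξ : Edge n → unitInterval, minSum H (fun x => Real.exp (x / (C * N064B.pE n H))) ξ ≤
      5 * H.edgeSet.ncard := by
  classical
  have hpos := Act.pE_pos' hH j
  have hC0 : 0 < C := lt_of_lt_of_le (by norm_num) hC
  have h := act_prof (G := Equiv.Perm (Fin n)) (img H j) (2 * P064.pE n H) (by positivity)
    (fun F hF hne => stab_pE j F hF hne) (c := C * P064.pE n H) (by nlinarith)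
  rw [card_img] at h
  rw [pE_eq, minSum_eq H _ j]
  exact ⟨integrable_me (c := C * P064.pE n H) (by positivity) _, h⟩

theorem stab_of_orbit {X G : Type*} [Fintype X] [DecidableEq X] [Group G] [Fintype G]
    [DecidableEq G] [MulAction G X] (q : ℝ) (hq0 : 0 < q) (F : Finset X) (hne : F.Nonempty)
    (h1 : 1 / 2 ≤ ((MulAction.orbit G F).ncard : ℝ) * q ^ F.card) :
    ((univ.filter fun g : G => g • F = F).card : ℝ) ≤ Fintype.card G * (2 * q) ^ F.card := by
  have h2 : (MulAction.orbit G F).ncard = (Act.translates G F).card := by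
    rw [← Set.ncard_coe_finset]
    congr 1
    ext T
    rw [mem_coe, Act.mem_translates]
    rfl
  have h3 := Act.card_translates_mul G F
  have h4 : ((Act.translates G F).card : ℝ) *
      ((univ.filter fun g : G => g • F = F).card : ℝ) = Fintype.card G := by
    exact_mod_cast h3
  rw [h2] at h1
  have h5 : (2 : ℝ) ≤ 2 ^ F.card := by
    calc (2 : ℝ) = 2 ^ 1 := by norm_num
      _ ≤ 2 ^ F.card := pow_le_pow_right₀ (by norm_num) (Finset.card_pos.2 hne)
  have h6 : (0 : ℝ) ≤ ((univ.filter fun g : G => g • F = F).card : ℝ) := Nat.cast_nonneg _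
  have h7 := mul_le_mul_of_nonneg_left h1 h6
  have h8 : (0 : ℝ) ≤ Fintype.card G * q ^ F.card := by positivity
  rw [mul_pow]
  calc ((univ.filter fun g : G => g • F = F).card : ℝ)
      ≤ 2 * (((Act.translates G F).card * ((univ.filter fun g : G => g • F = F).card : ℝ)) *
        q ^ F.card) := by linarith
    _ = 2 * (Fintype.card G * q ^ F.card) := by rw [h4]
    _ ≤ 2 ^ F.card * (Fintype.card G * q ^ F.card) := mul_le_mul_of_nonneg_right h5 h8
    _ = _ := by ring

theorem iInf_group {X G : Type*} [Fintype X] [DecidableEq X] [Group G] [Fintype G]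
    [DecidableEq G] [MulAction G X] (H : Finset X) (φ : ℝ → ℝ) (ξ : X → unitInterval) :
    ⨅ g : G, ∑ x ∈ g • H, φ (ξ x) = mg φ (univ.image fun g : G => g • H) ξ := by
  apply le_antisymm
  · obtain ⟨S, hS, e⟩ := exists_mg φ (A := univ.image fun g : G => g • H)
      (Finset.univ_nonempty.image _) ξ
    obtain ⟨g, _, rfl⟩ := mem_image.1 hS
    rw [← e]
    exact ciInf_le (f := fun g : G => ∑ x ∈ g • H, φ (ξ x)) (Set.finite_range _).bddBelow _
  · exact le_ciInf fun g => mg_le φ (mem_image_of_mem _ (mem_univ g)) ξ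

theorem group_upper {X G : Type*} [Fintype X] [DecidableEq X] [Group G] [Fintype G]
    [MulAction G X] (H : Finset X) (q : ℝ) (hq0 : 0 < q)
    (hq : ∀ F ⊆ H, 1 / 2 ≤ ((MulAction.orbit G F).ncard : ℝ) * q ^ F.card)
    {C : ℝ} (hC : 2 ^ 68 ≤ C) :
    (∀ t : ℝ, 0 ≤ t → (volume : Measure (X → unitInterval)).real
      {ξ | C * q * (H.card + t) ≤ ⨅ g : G, ∑ x ∈ g • H, (ξ x : ℝ)} ≤ Real.exp (-t)) ∧
    Integrable (fun ξ : X → unitInterval => ⨅ g : G, ∑ x ∈ g • H, (ξ x : ℝ)) ∧
    (∫ ξ : X → unitInterval, ⨅ g : G, ∑ x ∈ g • H, (ξ x : ℝ)) ≤ C * q * H.card ∧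
    Integrable (fun ξ : X → unitInterval => ⨅ g : G, ∑ x ∈ g • H, Real.exp (ξ x / (C * q))) ∧
    (∫ ξ : X → unitInterval, ⨅ g : G, ∑ x ∈ g • H, Real.exp (ξ x / (C * q))) ≤ 5 * H.card := by
  classical
  have hs := fun F (hF : F ⊆ H) hne => stab_of_orbit (G := G) q hq0 F hne (hq F hF)
  have h := act_bounds (G := G) H (2 * q) (by positivity) hs (c := C * q) (by nlinarith)
  have h' := act_prof (G := G) H (2 * q) (by positivity) hs (c := C * q) (by nlinarith)
  have e : ∀ ξ : X → unitInterval, ⨅ g : G, ∑ x ∈ g • H, (ξ x : ℝ) =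
      mw (univ.image fun g : G => g • H) ξ := fun ξ => iInf_group H id ξ
  have e' : ∀ ξ : X → unitInterval, ⨅ g : G, ∑ x ∈ g • H, Real.exp (ξ x / (C * q)) =
      mg (ex (C * q)) (univ.image fun g : G => g • H) ξ := fun ξ => iInf_group H (ex (C * q)) ξ
  have hC0 : 0 < C := lt_of_lt_of_le (by norm_num) hC
  simp only [e, e']
  exact ⟨h.1, integrable_mw _, h.2, integrable_me (by positivity) _, h'⟩

/-! ### lower bounds -/

theorem img_sub {W : Type*} (H : SimpleGraph W) (F : H.Subgraph) (f : W ↪ Fin n) :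
    img F.coe ((Function.Embedding.subtype _).trans f) ⊆ img H f := by
  intro e he
  obtain ⟨a, b, hab, hs⟩ := (mem_img _ _ e).1 he
  exact (mem_img H f e).2 ⟨a.1, b.1, F.adj_sub hab, hs⟩

theorem ncard_coe {W : Type*} {H : SimpleGraph W} (F : H.Subgraph) :
    F.coe.edgeSet.ncard = F.edgeSet.ncard := by
  rw [← Subgraph.image_coe_edgeSet_coe,
    Set.ncard_image_of_injective _ (Sym2.map.injective Subtype.val_injective)]

theorem graph_lower {W : Type*} [Fintype W] (H : SimpleGraph W) (j : W ↪ Fin n)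
    (F : H.Subgraph) {p : ℝ} (hp0 : 0 < p) (hp1 : p ≤ 1) :
    (volume : Measure (Edge n → unitInterval)).real
      {ξ | minSum H id ξ ≤ F.edgeSet.ncard * p / 3} ≤ N064B.expCopy n F.coe p := by
  classical
  have : Fintype F.verts := Fintype.ofFinite _
  have h1 := union_tail (X := Edge n) (univ.image fun f : F.verts ↪ Fin n => img F.coe f)
    (m := F.edgeSet.ncard) (fun T hT => ?_) hp0 (f := minSum H id) (fun ξ => ?_)
  · refine h1.trans ?_
    have h2 := image_le (n := n) F.coe ⟨p, hp0.le, hp1⟩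
    rw [← expCopy_eq'] at h2
    refine le_trans ?_ h2
    have h3 : ∀ S ∈ univ.image (fun f : F.verts ↪ Fin n => F.coe.map f),
        p ^ S.edgeSet.ncard = p ^ F.edgeSet.ncard := by
      intro S hS
      obtain ⟨f, _, rfl⟩ := mem_image.1 hS
      rw [edgeSet_map, Set.ncard_image_of_injective _ f.sym2Map.injective, ncard_coe]
    change _ ≤ ∑ S ∈ univ.image (fun f : F.verts ↪ Fin n => F.coe.map f), p ^ S.edgeSet.ncard
    rw [Finset.sum_congr rfl h3, Finset.sum_const, nsmul_eq_mul]
    refine mul_le_mul_of_nonneg_right ?_ (by positivity)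
    have h4 : (univ.image fun f : F.verts ↪ Fin n => img F.coe f) =
        (univ.image (fun f : F.verts ↪ Fin n => F.coe.map f)).image ofG := by
      rw [Finset.image_image]
      rfl
    rw [h4]
    exact_mod_cast Finset.card_image_le
  · obtain ⟨f, _, rfl⟩ := mem_image.1 hT
    rw [card_img, ncard_coe]
  · obtain ⟨f, e⟩ := exists_minWeight H j ξ
    refine ⟨_, mem_image_of_mem _ (mem_univ ((Function.Embedding.subtype _).trans f)), ?_⟩
    rw [← e]
    exact Finset.sum_le_sum_of_subset_of_nonneg (img_sub H F f) fun x _ _ => (ξ x).2.1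

theorem graph_mean_ge {W : Type*} [Fintype W] (H : SimpleGraph W) (j : W ↪ Fin n) {t : ℝ}
    (ht : 0 ≤ t) (h : (volume : Measure (Edge n → unitInterval)).real
      {ξ | minSum H id ξ ≤ t} ≤ 1 / 2) : t / 2 ≤ ∫ ξ : Edge n → unitInterval, minSum H id ξ := by
  rw [minWeight_eq H j] at h ⊢
  exact mean_ge volume (mw_nonneg _) (measurable_mw _) (integrable_mw _) ht h

/-- the sum of the smallest weights -/
theorem graph_lower_sq {W : Type*} [Fintype W] (hn : 2 ≤ n) (H : SimpleGraph W) (j : W ↪ Fin n) :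
    (H.edgeSet.ncard : ℝ) ^ 2 / (18 * n ^ 2) ≤ ∫ ξ : Edge n → unitInterval, minSum H id ξ := by
  classical
  set m := H.edgeSet.ncard with hm
  rcases Nat.eq_zero_or_pos m with h0 | h0
  · rw [h0, minWeight_eq H j]
    simp only [Nat.cast_zero, ne_eq, OfNat.ofNat_ne_zero, not_false_eq_true, zero_pow, zero_div]
    exact integral_nonneg (mw_nonneg _)
  set N := n.choose 2 with hN
  have hN0 : 0 < N := Nat.choose_pos hn
  have hN1 : (0 : ℝ) < N := by exact_mod_cast hN0
  have hm1 : (0 : ℝ) < m := by exact_mod_cast h0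
  have h1 := union_tail (X := Edge n) (univ.powersetCard m) (m := m)
    (fun T hT => (mem_powersetCard.1 hT).2) (p := m / (6 * N)) (by positivity)
    (f := minSum H id) (fun ξ => ?_)
  · rw [Finset.card_powersetCard, Finset.card_univ, card_Pair] at h1
    have h2 := graph_mean_ge H j (by positivity) (h1.trans (choose_mul_le hN0 h0))
    refine le_trans ?_ h2
    have h3 : (N : ℝ) ≤ (n : ℝ) ^ 2 / 2 := by
      have := Nat.choose_le_pow_div (α := ℝ) 2 n
      simpa using this
    have hn0 : (0 : ℝ) < n := by exact_mod_cast (by omega : 0 < n)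
    rw [div_le_iff₀ (by positivity)]
    have h4 : (m : ℝ) * (m / (6 * N)) / 3 / 2 * (18 * n ^ 2) = m ^ 2 * (n ^ 2 / 2 / N) := by
      field_simp
      ring
    rw [h4]
    have h5 : (1 : ℝ) ≤ n ^ 2 / 2 / N := by
      rw [le_div_iff₀ hN1]
      linarith
    nlinarith [sq_nonneg (m : ℝ)]
  · obtain ⟨f, e⟩ := exists_minWeight H j ξ
    exact ⟨img H f, mem_powersetCard.2 ⟨subset_univ _, card_img H f⟩, e.le⟩

theorem nmat_lower (hn : 2 ≤ n) :
    1 / 729 * N064B.pE n (nmat n) * (nmat n).edgeSet.ncard ≤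
      ∫ ξ : Edge n → unitInterval, minSum (nmat n) id ξ := by
  refine le_trans ?_ (graph_lower_sq hn (nmat n) (Function.Embedding.refl _))
  have hn0 : (0 : ℝ) < n := by exact_mod_cast (by omega : 0 < n)
  have h1 : P064.pE n (nmat n) ≤ 9 / n := by
    rcases le_or_gt 9 n with h | h
    · exact pE_nmat_le h
    · obtain ⟨⟨p, hp, _⟩, _⟩ := pE_isLeast (nmat n) (Function.Embedding.refl (Fin n))
      rw [← hp, le_div_iff₀ hn0]
      have h2 : (n : ℝ) ≤ 9 := by exact_mod_cast h.le
      have h3 := p.2.2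
      nlinarith
  rw [pE_eq, N064.card_nmat]
  have h2 : (n : ℝ) ≤ 3 * (n / 2 : ℕ) := by exact_mod_cast (by omega : n ≤ 3 * (n / 2))
  have h3 : (0 : ℝ) ≤ (n / 2 : ℕ) := Nat.cast_nonneg _
  set m : ℝ := ((n / 2 : ℕ) : ℝ)
  calc 1 / 729 * P064.pE n (nmat n) * m ≤ 1 / 729 * (9 / n) * m := by gcongr
    _ = m * n / (81 * n ^ 2) := by field_simp; ring
    _ ≤ m ^ 2 / (18 * n ^ 2) := by
        rw [div_le_div_iff₀ (by positivity) (by positivity)]
        have h4 : 0 ≤ m * n ^ 2 := by positivity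
        nlinarith

end Vale.Agent.N064B
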