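import Vale.Agent.N064B.Split

/-!
P064 (helper70): the fragment iteration for the least weight of a member of a family.
-/

set_option linter.all false

namespace Vale.Agent.N064B

open Finset MeasureTheory Vale.Agent.P064 Vale.Agent.P064.Multi Vale.Agent.P064.H825
open scoped Pointwise

variable {X : Type*} [Fintype X] [DecidableEq X]

/-- least weight of a member of `A` -/
noncomputable def mw (A : Finset (Finset X)) (ξ : X → unitInterval) : ℝ :=
  ⨅ S : A, ∑ x ∈ S.1, (ξ x : ℝ)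

theorem mw_le {A : Finset (Finset X)} {S : Finset X} (hS : S ∈ A) (ξ : X → unitInterval) :
    mw A ξ ≤ ∑ x ∈ S, (ξ x : ℝ) :=
  ciInf_le (f := fun S : A => ∑ x ∈ S.1, (ξ x : ℝ)) (Set.finite_range _).bddBelow ⟨S, hS⟩

theorem exists_mw {A : Finset (Finset X)} (hA : A.Nonempty) (ξ : X → unitInterval) :
    ∃ S ∈ A, ∑ x ∈ S, (ξ x : ℝ) = mw A ξ := by
  have : Nonempty A := hA.to_subtype
  obtain ⟨S, hS⟩ := exists_eq_ciInf_of_finite (f := fun S : A => ∑ x ∈ S.1, (ξ x : ℝ))
  exact ⟨S.1, S.2, hS⟩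

theorem mw_nonneg (A : Finset (Finset X)) (ξ : X → unitInterval) : 0 ≤ mw A ξ :=
  Real.iInf_nonneg fun _ => Finset.sum_nonneg fun x _ => (ξ x).2.1

theorem sum_le_card (S : Finset X) (ξ : X → unitInterval) : ∑ x ∈ S, (ξ x : ℝ) ≤ S.card := by
  calc ∑ x ∈ S, (ξ x : ℝ) ≤ ∑ x ∈ S, (1 : ℝ) := Finset.sum_le_sum fun x _ => (ξ x).2.2
    _ = S.card := by simp

theorem mw_le_card {A : Finset (Finset X)} {ℓ : ℕ} (hA : ∀ S ∈ A, S.card ≤ ℓ)
    (ξ : X → unitInterval) : mw A ξ ≤ ℓ := by
  rcases A.eq_empty_or_nonempty with h | ⟨S, hS⟩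
  · subst h
    unfold mw
    rw [Real.iInf_of_isEmpty]
    exact Nat.cast_nonneg _
  · refine (mw_le hS ξ).trans ((sum_le_card S ξ).trans ?_)
    exact_mod_cast hA S hS

theorem measurable_mw (A : Finset (Finset X)) : Measurable (mw A) := by
  unfold mw
  refine Measurable.iInf fun S => ?_
  refine Finset.measurable_sum _ fun x _ => ?_
  exact measurable_subtype_coe.comp (measurable_pi_apply x)

theorem sum_phi_le (w : unitInterval) (W S T : Finset X) (hT : S \ W ⊆ T)
    (η : X → unitInterval) :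
    ∑ x ∈ S, (phi w W η x : ℝ) ≤ w * S.card + ∑ x ∈ T, (η x : ℝ) := by
  have hw0 := w.2.1
  have hw1 := w.2.2
  calc ∑ x ∈ S, (phi w W η x : ℝ)
      ≤ ∑ x ∈ S, ((w : ℝ) + if x ∉ W then (η x : ℝ) else 0) := by
        refine Finset.sum_le_sum fun x _ => ?_
        have h0 := (η x).2.1
        have h1 := (η x).2.2
        unfold phi
        by_cases hx : x ∈ W
        · rw [if_pos hx, if_neg (not_not.2 hx), lo_val]
          nlinarith
        · rw [if_neg hx, if_pos hx, hi_val]
          nlinarith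
    _ = w * S.card + ∑ x ∈ S \ W, (η x : ℝ) := by
        rw [Finset.sum_add_distrib, Finset.sum_const, nsmul_eq_mul, mul_comm, ← Finset.sum_filter,
          Finset.sdiff_eq_filter]
    _ ≤ _ := by
        have := Finset.sum_le_sum_of_subset_of_nonneg (f := fun x => (η x : ℝ)) hT
          fun x _ _ => (η x).2.1
        linarith

theorem nonempty_of_cost {p : ℝ} {A : Finset (Finset X)} (h : 0 < cost p A) : A.Nonempty := by
  rw [Finset.nonempty_iff_ne_empty]
  rintro rfl
  have : Cov (∅ : Finset (Finset X)) ∅ := fun S hS => absurd hS (notMem_empty S)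
  have h1 : cost p (∅ : Finset (Finset X)) ≤ 0 := by simpa using cost_le (p := p) this
  linarith

theorem measurable_emw (A : Finset (Finset X)) (c : ℝ) :
    Measurable fun ξ => Real.exp (mw A ξ / c) :=
  Real.measurable_exp.comp ((measurable_mw A).div_const c)

theorem emw_bdd (A : Finset (Finset X)) {c : ℝ} (hc : 0 < c) (ξ : X → unitInterval) :
    |Real.exp (mw A ξ / c)| ≤ Real.exp (Fintype.card X / c) := by
  rw [abs_of_pos (Real.exp_pos _)]
  refine Real.exp_le_exp.2 (div_le_div_of_nonneg_right ?_ hc.le)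
  exact mw_le_card (fun S _ => card_le_univ S) ξ

theorem integrable_emw (A : Finset (Finset X)) {c : ℝ} (hc : 0 < c) :
    Integrable (fun ξ => Real.exp (mw A ξ / c)) (volume : Measure (X → unitInterval)) :=
  integrable_bdd _ (measurable_emw A c) (emw_bdd A hc)

/-- one step, for a fixed set `W` -/
theorem step_le (w : unitInterval) (hw : (0 : ℝ) < w) (W : Finset X) {A B : Finset (Finset X)}
    {ℓ : ℕ} (hA : ∀ S ∈ A, S.card ≤ ℓ) (hB : B.Nonempty) (h : ∀ T ∈ B, ∃ S ∈ A, S \ W ⊆ T) :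
    ∫ η, Real.exp (mw A (phi w W η) / (2 * w)) ≤
      Real.exp (ℓ / 2) * ∫ η, Real.exp (mw B η / (2 * w)) := by
  have hc : (0 : ℝ) < 2 * w := by positivity
  rw [← integral_const_mul]
  refine integral_mono ?_ ((integrable_emw B hc).const_mul _) fun η => ?_
  · exact integrable_bdd _ ((measurable_emw A _).comp (measurable_phi w W))
      fun η => emw_bdd A hc _
  · obtain ⟨T, hT, e⟩ := exists_mw hB η
    obtain ⟨S, hS, hST⟩ := h T hT
    have h1 := (mw_le hS (phi w W η)).trans (sum_phi_le w W S T hST η)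
    have h2 : (S.card : ℝ) ≤ ℓ := by exact_mod_cast hA S hS
    have h3 : (w : ℝ) * S.card ≤ w * ℓ := mul_le_mul_of_nonneg_left h2 hw.le
    rw [e] at h1
    change Real.exp _ ≤ Real.exp _ * Real.exp _
    rw [← Real.exp_add]
    refine Real.exp_le_exp.2 ?_
    rw [div_le_iff₀ hc]
    have : ((ℓ : ℝ) / 2 + mw B η / (2 * w)) * (2 * w) = w * ℓ + mw B η := by
      field_simp
    rw [this]
    linarith

theorem exp_half_le : Real.exp (1 / 2) ≤ 2 := by
  have h1 : Real.exp (1 / 2) * Real.exp (1 / 2) = Real.exp 1 := by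
    rw [← Real.exp_add]
    norm_num
  have h2 := Real.exp_one_lt_d9
  have h3 := Real.exp_pos (1 / 2)
  nlinarith

/-- **the iteration** -/
theorem mgf {p : ℝ} (w : unitInterval) (hp : 0 < p) (hpw : 64 * p ≤ w) (hw1 : (w : ℝ) < 1) :
    ∀ (ℓ : ℕ) (A : Finset (Finset X)), (∀ S ∈ A, S.card ≤ ℓ) →
      ∑ j ∈ Ioc 0 ℓ, (1 / 2 : ℝ) ^ j < cost p A →
      ∫ ξ, Real.exp (mw A ξ / (2 * w)) ≤ Real.exp (3 * ℓ / 2) := by
  have hw0 : (0 : ℝ) < w := by linarith
  have hc : (0 : ℝ) < 2 * w := by positivity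
  have hr0 : 0 ≤ p / w := by positivity
  have hr : p / w ≤ 1 / 64 := by
    rw [div_le_div_iff₀ hw0 (by norm_num)]
    linarith
  intro ℓ
  induction ℓ using Nat.strong_induction_on with
  | _ ℓ ih =>
  intro A hA hcost
  rcases Nat.eq_zero_or_pos ℓ with h0 | h0
  · subst h0
    have h1 : ∫ ξ, Real.exp (mw A ξ / (2 * w)) ≤ ∫ _ : X → unitInterval, (1 : ℝ) := by
      refine integral_mono (integrable_emw A hc) (integrable_const _) fun ξ => ?_
      have h2 := mw_le_card hA ξ
      change Real.exp _ ≤ 1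
      rw [Real.exp_le_one_iff]
      exact div_nonpos_of_nonpos_of_nonneg (by simpa using h2) hc.le
    simpa using h1
  set M := ∫ ξ, Real.exp (mw A ξ / (2 * w)) with hM
  have hM0 : 0 ≤ M := integral_nonneg fun ξ => (Real.exp_pos _).le
  set E := Real.exp (3 * (ℓ / 2 : ℕ) / 2) with hE
  have hE0 : 0 < E := Real.exp_pos _
  set big : Finset X → ℝ := fun W => ∑ t ∈ Ioc (ℓ / 2) ℓ,
    (((frs A W).filter fun T => T.card = t).card : ℝ) * p ^ t with hbig
  have hbig0 : ∀ W, 0 ≤ big W := fun W =>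
    Finset.sum_nonneg fun t _ => by positivity
  have hsum : ∑ j ∈ Ioc 0 (ℓ / 2), (1 / 2 : ℝ) ^ j + (1 / 2) ^ ℓ ≤
      ∑ j ∈ Ioc 0 ℓ, (1 / 2 : ℝ) ^ j := by
    have h1 : ℓ ∉ Ioc 0 (ℓ / 2) := by
      rw [mem_Ioc]
      omega
    rw [add_comm, ← Finset.sum_insert h1]
    refine Finset.sum_le_sum_of_subset_of_nonneg ?_ fun _ _ _ => by positivity
    intro j hj
    rw [mem_insert, mem_Ioc] at hj
    rw [mem_Ioc]
    omega
  have hAne : A.Nonempty := nonempty_of_cost
    (lt_of_le_of_lt (Finset.sum_nonneg fun _ _ => by positivity) hcost)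
  have he : 0 < Real.exp (ℓ / 2) := Real.exp_pos _
  have h2 : ∀ W : Finset X, ∫ η, Real.exp (mw A (phi w W η) / (2 * w)) ≤
      Real.exp (ℓ / 2) * E + (Real.exp (ℓ / 2) * 2 ^ ℓ * M) * big W := by
    intro W
    by_cases hs : big W ≤ (1 / 2) ^ ℓ
    · have h3 := cost_step hA hp.le (ℓ / 2) W
      have h3' : ∑ j ∈ Ioc 0 (ℓ / 2), (1 / 2 : ℝ) ^ j < cost p (fr (ℓ / 2) A W) := by
        change cost p A ≤ cost p (fr (ℓ / 2) A W) + big W at h3
        linarith
      have h4 := ih (ℓ / 2) (by omega) (fr (ℓ / 2) A W) (fun S hS => (mem_filter.1 hS).2) h3'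
      have h5 := step_le w hw0 W hA (nonempty_of_cost
        (lt_of_le_of_lt (Finset.sum_nonneg fun _ _ => by positivity) h3')) (by
          intro T hT
          obtain ⟨S', h1, _, h3⟩ := frs_mem (mem_filter.1 hT).1
          exact ⟨S', h1, h3.ge⟩)
      have h6 : 0 ≤ (Real.exp (ℓ / 2) * 2 ^ ℓ * M) * big W :=
        mul_nonneg (by positivity) (hbig0 W)
      have h7 := mul_le_mul_of_nonneg_left h4 he.le
      linarith
    · rw [not_le] at hs
      have h5 := step_le w hw0 W hA hAne fun T hT => ⟨T, hT, sdiff_subset⟩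
      have h6 : 1 ≤ 2 ^ ℓ * big W := by
        have h7 : (2 : ℝ) ^ ℓ * (1 / 2) ^ ℓ = 1 := by rw [← mul_pow]; norm_num
        rw [← h7]
        exact mul_le_mul_of_nonneg_left hs.le (by positivity)
      have h8 : Real.exp (ℓ / 2) * M * 1 ≤ Real.exp (ℓ / 2) * M * (2 ^ ℓ * big W) :=
        mul_le_mul_of_nonneg_left h6 (by positivity)
      have h9 : 0 ≤ Real.exp (ℓ / 2) * E := by positivity
      rw [← hM] at h5
      nlinarith
  have h3 : ES (w : ℝ) univ big ≤ ∑ t ∈ Ioc (ℓ / 2) ℓ, (ℓ.choose t : ℝ) * (p / w) ^ t := by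
    rw [hbig, ES_sum]
    refine Finset.sum_le_sum fun t _ => ?_
    have hcm : ES (w : ℝ) (univ : Finset X) (fun W =>
        (((frs A W).filter fun T => T.card = t).card : ℝ) * p ^ t) =
        ES (w : ℝ) univ (fun W => p ^ t * (((frs A W).filter fun T => T.card = t).card : ℝ)) :=
      ES_congr _ _ fun W _ => mul_comm _ _
    rw [hcm, ES_mul]
    calc p ^ t * ES (w : ℝ) univ (fun W => (((frs A W).filter fun T => T.card = t).card : ℝ))
        ≤ p ^ t * ((ℓ.choose t : ℝ) * (1 / w) ^ t) :=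
          mul_le_mul_of_nonneg_left (count_big hA hw0 hw1.le t) (by positivity)
      _ = (ℓ.choose t : ℝ) * (p / w) ^ t := by
          rw [div_eq_mul_one_div p w, mul_pow]
          ring
  have h4 := N064.err2 hr0 hr ℓ
  have h5 : M ≤ Real.exp (ℓ / 2) * E + (Real.exp (ℓ / 2) * 2 ^ ℓ * M) * ES (w : ℝ) univ big := by
    calc M = ES (w : ℝ) univ fun W : Finset X => ∫ η, Real.exp (mw A (phi w W η) / (2 * w)) :=
          integral_split w hw0 hw1 (measurable_emw A _) (emw_bdd A hc)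
      _ ≤ ES (w : ℝ) univ fun W : Finset X =>
          Real.exp (ℓ / 2) * E + (Real.exp (ℓ / 2) * 2 ^ ℓ * M) * big W :=
          ES_mono hw0.le hw1.le _ fun W _ => h2 W
      _ = _ := by rw [ES_add, ES_const, ES_mul]
  have h6 : Real.exp (ℓ / 2) ≤ 2 ^ ℓ := by
    rw [show (ℓ : ℝ) / 2 = ℓ * (1 / 2) by ring, Real.exp_nat_mul]
    exact pow_le_pow_left₀ (Real.exp_pos _).le exp_half_le ℓ
  have h7 : (Real.exp (ℓ / 2) * 2 ^ ℓ * M) * ES (w : ℝ) univ big ≤ M / 8 := by
    calc (Real.exp (ℓ / 2) * 2 ^ ℓ * M) * ES (w : ℝ) univ big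
        ≤ (Real.exp (ℓ / 2) * 2 ^ ℓ * M) * (1 / 8 * (1 / 4) ^ ℓ) :=
          mul_le_mul_of_nonneg_left (h3.trans h4) (by positivity)
      _ ≤ (2 ^ ℓ * 2 ^ ℓ * M) * (1 / 8 * (1 / 4) ^ ℓ) := by gcongr
      _ = M / 8 * (2 ^ ℓ * 2 ^ ℓ * (1 / 4) ^ ℓ) := by ring
      _ = M / 8 := by
          rw [← mul_pow, ← mul_pow]
          norm_num
  have h8 : Real.exp (ℓ / 2) * E * Real.exp (1 / 2) ≤ Real.exp (3 * ℓ / 2) := by
    rw [hE, ← Real.exp_add, ← Real.exp_add]
    refine Real.exp_le_exp.2 ?_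
    have h9 : 3 * (ℓ / 2) + 1 ≤ 2 * ℓ := by omega
    have h10 : (3 : ℝ) * (ℓ / 2 : ℕ) + 1 ≤ 2 * ℓ := by exact_mod_cast h9
    linarith
  have h9 : (3 / 2 : ℝ) ≤ Real.exp (1 / 2) := by
    have := Real.add_one_le_exp (1 / 2 : ℝ)
    linarith
  have h10 : 0 < Real.exp (ℓ / 2) * E := by positivity
  nlinarith

/-- covers of the translates are expensive -/
theorem cost_ge {G : Type*} [Group G] [Fintype G] [DecidableEq G] [MulAction G X]
    (H : Finset X) (q : ℝ) (hq0 : 0 < q)
    (hq : ∀ F ⊆ H, F.Nonempty → ((univ.filter fun g : G => g • F = F).card : ℝ) ≤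
      Fintype.card G * q ^ F.card) :
    1 ≤ cost (2 ^ 59 * q) (univ.image fun g : G => g • H) := by
  classical
  set p : ℝ := 2 ^ 59 * q with hp
  have hG0 : (0 : ℝ) < Fintype.card G := by exact_mod_cast Fintype.card_pos
  have hsp : ∀ F : Finset X, ((univ.filter fun g : G => F ⊆ g • H).card : ℝ) ≤
      Fintype.card G * p ^ F.card := by
    intro F
    refine le_trans ?_ (Ctx.spread_const (G := G) H q hq0 hq F)
    have h3 : (univ.filter fun g : G => F ⊆ g • H).card ≤
        (univ.filter fun g : G => g • F ⊆ H).card := by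
      refine Finset.card_le_card_of_injOn (fun g => g⁻¹) ?_ inv_injective.injOn
      intro g hg
      have hg' := (mem_filter.1 (mem_coe.1 hg)).2
      simp only [coe_filter, mem_univ, true_and, Set.mem_setOf_eq]
      have h4 := Finset.smul_finset_subset_smul_finset (a := g⁻¹) hg'
      rwa [inv_smul_smul] at h4
    exact_mod_cast h3
  refine le_cost fun U hU => ?_
  have h1 : (Fintype.card G : ℝ) ≤
      ∑ F ∈ U, ((univ.filter fun g : G => F ⊆ g • H).card : ℝ) := by
    have h2 : (univ : Finset G).card ≤ ∑ F ∈ U, (univ.filter fun g : G => F ⊆ g • H).card := by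
      refine le_trans (card_le_card
        (t := U.biUnion fun F => univ.filter fun g : G => F ⊆ g • H) ?_) card_biUnion_le
      intro g hg
      obtain ⟨F, hF, hFT⟩ := hU (g • H) (mem_image_of_mem _ hg)
      exact mem_biUnion.2 ⟨F, hF, mem_filter.2 ⟨hg, hFT⟩⟩
    rw [Finset.card_univ] at h2
    exact_mod_cast h2
  have h2 : (Fintype.card G : ℝ) ≤ Fintype.card G * ∑ F ∈ U, p ^ F.card := by
    rw [Finset.mul_sum]
    exact h1.trans (Finset.sum_le_sum fun F _ => hsp F)
  by_contra hcon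
  nlinarith [not_le.1 hcon]

/-- the exponential moment for the translates -/
theorem act_mgf {G : Type*} [Group G] [Fintype G] [DecidableEq G] [MulAction G X]
    (H : Finset X) (q : ℝ) (hq0 : 0 < q)
    (hq : ∀ F ⊆ H, F.Nonempty → ((univ.filter fun g : G => g • F = F).card : ℝ) ≤
      Fintype.card G * q ^ F.card) :
    ∫ ξ, Real.exp (mw (univ.image fun g : G => g • H) ξ / (2 ^ 66 * q)) ≤
      Real.exp (3 * H.card / 2) := by
  set A : Finset (Finset X) := univ.image fun g : G => g • H with hA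
  have hAc : ∀ S ∈ A, S.card ≤ H.card := by
    intro S hS
    obtain ⟨g, _, rfl⟩ := mem_image.1 hS
    rw [Finset.card_smul_finset]
  have hc : (0 : ℝ) < 2 ^ 66 * q := by positivity
  rcases lt_or_ge (2 ^ 65 * q) 1 with h | h
  · have h1 := mgf (X := X) (p := 2 ^ 59 * q) ⟨2 ^ 65 * q, by positivity, h.le⟩ (by positivity)
      (le_of_eq (by change _ = 2 ^ 65 * q; ring)) h H.card A hAc
      ((N064.geo_lt 0 H.card).trans_le (cost_ge H q hq0 hq))
    have e : (2 : ℝ) * (2 ^ 65 * q) = 2 ^ 66 * q := by ring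
    change ∫ ξ, Real.exp (mw A ξ / (2 * (2 ^ 65 * q))) ≤ _ at h1
    rwa [e] at h1
  · have h1 : ∫ ξ, Real.exp (mw A ξ / (2 ^ 66 * q)) ≤
        ∫ _ : X → unitInterval, Real.exp (3 * H.card / 2) := by
      refine integral_mono (integrable_emw A hc) (integrable_const _) fun ξ => ?_
      refine Real.exp_le_exp.2 ?_
      rw [div_le_iff₀ hc]
      have h2 := mw_le_card hAc ξ
      have h3 : (0 : ℝ) ≤ H.card := Nat.cast_nonneg _
      nlinarith
    simpa using h1

/-- from the exponential moment to the tail -/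
theorem tail_of_mgf {α : Type*} [MeasurableSpace α] (μ : Measure α) [IsProbabilityMeasure μ]
    {f : α → ℝ} {c a : ℝ} (hc : 0 < c) (hi : Integrable (fun x => Real.exp (f x / c)) μ)
    (h : ∫ x, Real.exp (f x / c) ∂μ ≤ Real.exp a) (t : ℝ) :
    μ.real {x | c * (a + t) ≤ f x} ≤ Real.exp (-t) := by
  have h1 := mul_meas_ge_le_integral_of_nonneg (μ := μ)
    (Filter.Eventually.of_forall fun x => (Real.exp_pos (f x / c)).le) hi (Real.exp (a + t))
  have h2 : {x | c * (a + t) ≤ f x} = {x | Real.exp (a + t) ≤ Real.exp (f x / c)} := by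
    ext x
    simp only [Set.mem_setOf_eq, Real.exp_le_exp]
    rw [le_div_iff₀ hc, mul_comm]
  rw [h2]
  have h3 := h1.trans h
  have h4 : Real.exp a = Real.exp (a + t) * Real.exp (-t) := by
    rw [← Real.exp_add]
    congr 1
    ring
  rw [h4] at h3
  exact le_of_mul_le_mul_left h3 (Real.exp_pos _)

/-- from the exponential moment to the mean -/
theorem mean_of_mgf {α : Type*} [MeasurableSpace α] (μ : Measure α) [IsProbabilityMeasure μ]
    {f : α → ℝ} {c a : ℝ} (hc : 0 < c) (hf : Integrable f μ)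
    (hi : Integrable (fun x => Real.exp (f x / c)) μ)
    (h : ∫ x, Real.exp (f x / c) ∂μ ≤ Real.exp a) : ∫ x, f x ∂μ ≤ c * a := by
  have he := Real.exp_pos a
  have h1 : ∫ x, f x ∂μ ≤ ∫ x, (c * a - c + c / Real.exp a * Real.exp (f x / c)) ∂μ := by
    refine integral_mono hf ((integrable_const _).add (hi.const_mul _)) fun x => ?_
    have h2 := Real.add_one_le_exp (f x / c - a)
    rw [Real.exp_sub] at h2
    have h3 := mul_le_mul_of_nonneg_left h2 hc.le
    have h4 : c * (f x / c - a + 1) = f x - c * a + c := by field_simp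
    have h5 : c * (Real.exp (f x / c) / Real.exp a) = c / Real.exp a * Real.exp (f x / c) := by
      ring
    change f x ≤ c * a - c + c / Real.exp a * Real.exp (f x / c)
    linarith
  rw [integral_add (integrable_const _) (hi.const_mul _), integral_const_mul] at h1
  have h6 : c / Real.exp a * ∫ x, Real.exp (f x / c) ∂μ ≤ c / Real.exp a * Real.exp a :=
    mul_le_mul_of_nonneg_left h (by positivity)
  have h7 : c / Real.exp a * Real.exp a = c := by field_simp
  simp only [integral_const, probReal_univ, smul_eq_mul, one_mul] at h1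
  linarith

end Vale.Agent.N064B
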