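import Vale.Agent.N064B.Iter
import Mathlib.Analysis.SpecialFunctions.Integrals.Basic
import Mathlib.Data.Nat.Choose.Bounds

/-!
P064 (helper70): lower tails of sums of independent uniform weights.
-/

set_option linter.all false

namespace Vale.Agent.N064B

open Finset MeasureTheory Vale.Agent.P064

theorem int_exp {c : ℝ} (hc : 0 < c) : ∫ x : unitInterval, Real.exp (-(x : ℝ) / c) ≤ c := by
  have h1 := unitInterval.measurePreserving_coe.integral_comp
    unitInterval.measurableEmbedding_coe (fun x : ℝ => Real.exp (-x / c))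
  rw [h1]
  have h2 : ∫ x in unitInterval, Real.exp (-x / c) = ∫ x in (0 : ℝ)..1, Real.exp (-x / c) := by
    rw [intervalIntegral.integral_of_le zero_le_one]
    exact integral_Icc_eq_integral_Ioc
  rw [h2]
  have h3 : ∫ x in (0 : ℝ)..1, Real.exp (-x / c) =
      -c * Real.exp (-1 / c) - -c * Real.exp (-0 / c) := by
    refine intervalIntegral.integral_eq_sub_of_hasDerivAt
      (f := fun x => -c * Real.exp (-x / c)) (fun x _ => ?_) ?_
    · have h4 : HasDerivAt (fun x : ℝ => -x / c) (-1 / c) x := (hasDerivAt_neg x).div_const c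
      have h5 := (h4.exp).const_mul (-c)
      have e : -c * (Real.exp (-x / c) * (-1 / c)) = Real.exp (-x / c) := by field_simp
      rw [e] at h5
      exact h5
    · exact (by fun_prop : Continuous fun x : ℝ => Real.exp (-x / c)).intervalIntegrable _ _
  rw [h3]
  have h6 := Real.exp_pos (-1 / c)
  simp only [neg_zero, zero_div, Real.exp_zero]
  nlinarith

variable {X : Type*} [Fintype X] [DecidableEq X]

theorem measurable_sum (T : Finset X) :
    Measurable fun ξ : X → unitInterval => ∑ x ∈ T, (ξ x : ℝ) :=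
  Finset.measurable_sum _ fun x _ => measurable_subtype_coe.comp (measurable_pi_apply x)

/-- the lower tail of a sum of independent uniform weights -/
theorem sum_tail (T : Finset X) {p : ℝ} (hp : 0 < p) :
    (volume : Measure (X → unitInterval)).real {ξ | ∑ x ∈ T, (ξ x : ℝ) ≤ T.card * p / 3} ≤
      p ^ T.card := by
  set c : ℝ := p / 3 with hc
  have hc0 : 0 < c := by positivity
  set g : (X → unitInterval) → ℝ := fun ξ => Real.exp (-(∑ x ∈ T, (ξ x : ℝ)) / c) with hg
  have hgm : Measurable g := Real.measurable_exp.comp ((measurable_sum T).neg.div_const c)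
  have hgi : Integrable g volume := by
    refine integrable_bdd _ hgm (B := 1) fun ξ => ?_
    rw [abs_of_pos (Real.exp_pos _), Real.exp_le_one_iff]
    refine div_nonpos_of_nonpos_of_nonneg ?_ hc0.le
    rw [neg_nonpos]
    exact Finset.sum_nonneg fun x _ => (ξ x).2.1
  have h1 : ∫ ξ, g ξ ≤ c ^ T.card := by
    have h2 : g = fun ξ => ∏ x, (fun x (y : unitInterval) =>
        if x ∈ T then Real.exp (-(y : ℝ) / c) else 1) x (ξ x) := by
      funext ξ
      rw [hg]
      simp only
      rw [← Finset.prod_filter, Finset.filter_mem_eq_inter, Finset.univ_inter, ← Real.exp_sum]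
      congr 1
      rw [← Finset.sum_div, Finset.sum_neg_distrib]
    have h2' := integral_fintype_prod_volume_eq_prod (E := fun _ : X => unitInterval)
      (fun x (y : unitInterval) => if x ∈ T then Real.exp (-(y : ℝ) / c) else 1)
    rw [h2]
    refine h2'.le.trans ?_
    calc ∏ x, ∫ y : unitInterval, (if x ∈ T then Real.exp (-(y : ℝ) / c) else 1)
        ≤ ∏ x, (if x ∈ T then c else 1) := by
          refine Finset.prod_le_prod (fun x _ => integral_nonneg fun y => ?_) fun x _ => ?_
          · change (0 : ℝ) ≤ _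
            split_ifs
            · exact (Real.exp_pos _).le
            · exact zero_le_one
          · split_ifs
            · exact int_exp hc0
            · simp
      _ = c ^ T.card := by
          rw [← Finset.prod_filter, Finset.filter_mem_eq_inter, Finset.univ_inter,
            Finset.prod_const]
  have h3 := mul_meas_ge_le_integral_of_nonneg (μ := volume)
    (Filter.Eventually.of_forall fun ξ => (Real.exp_pos _).le) hgi (Real.exp (-T.card))
  have h4 : {ξ : X → unitInterval | ∑ x ∈ T, (ξ x : ℝ) ≤ T.card * p / 3} =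
      {ξ | Real.exp (-T.card) ≤ g ξ} := by
    ext ξ
    simp only [Set.mem_setOf_eq, hg, Real.exp_le_exp]
    rw [le_div_iff₀ hc0, hc]
    constructor <;> intro h <;> linarith
  rw [h4]
  have h5 := h3.trans h1
  have h6 : c ^ T.card ≤ Real.exp (-T.card) * p ^ T.card := by
    rw [show (-(T.card : ℝ)) = T.card * (-1) by ring, Real.exp_nat_mul, ← mul_pow]
    refine pow_le_pow_left₀ hc0.le ?_ _
    have h7 : Real.exp (-1) * Real.exp 1 = 1 := by rw [← Real.exp_add]; simp
    have h8 := Real.exp_one_lt_d9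
    have h9 := Real.exp_pos (-1)
    have h10 : 1 / 3 ≤ Real.exp (-1) := by nlinarith
    rw [hc]
    nlinarith
  exact le_of_mul_le_mul_left (h5.trans h6) (Real.exp_pos _)

/-- union bound -/
theorem union_tail (U : Finset (Finset X)) {m : ℕ} (hU : ∀ T ∈ U, T.card = m) {p : ℝ}
    (hp : 0 < p) {f : (X → unitInterval) → ℝ}
    (hf : ∀ ξ, ∃ T ∈ U, ∑ x ∈ T, (ξ x : ℝ) ≤ f ξ) :
    (volume : Measure (X → unitInterval)).real {ξ | f ξ ≤ m * p / 3} ≤ U.card * p ^ m := by
  have h1 : {ξ | f ξ ≤ m * p / 3} ⊆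
      ⋃ T ∈ U, {ξ : X → unitInterval | ∑ x ∈ T, (ξ x : ℝ) ≤ T.card * p / 3} := by
    intro ξ hξ
    obtain ⟨T, hT, h⟩ := hf ξ
    refine Set.mem_biUnion hT ?_
    rw [Set.mem_setOf_eq, hU T hT]
    exact h.trans hξ
  refine (measureReal_mono h1 (measure_ne_top _ _)).trans ((measureReal_biUnion_finset_le _ _).trans ?_)
  calc ∑ T ∈ U, (volume : Measure (X → unitInterval)).real
        {ξ | ∑ x ∈ T, (ξ x : ℝ) ≤ T.card * p / 3} ≤ ∑ T ∈ U, p ^ m := by
        refine Finset.sum_le_sum fun T hT => ?_
        rw [← hU T hT]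
        exact sum_tail T hp
    _ = _ := by rw [Finset.sum_const, nsmul_eq_mul]

/-- from the lower tail to the mean -/
theorem mean_ge {α : Type*} [MeasurableSpace α] (μ : Measure α) [IsProbabilityMeasure μ]
    {f : α → ℝ} (hf0 : ∀ x, 0 ≤ f x) (hfm : Measurable f) (hf : Integrable f μ) {t : ℝ}
    (ht : 0 ≤ t) (h : μ.real {x | f x ≤ t} ≤ 1 / 2) : t / 2 ≤ ∫ x, f x ∂μ := by
  have h1 := mul_meas_ge_le_integral_of_nonneg (μ := μ) (Filter.Eventually.of_forall hf0) hf t
  have h2 : μ.real {x | f x ≤ t}ᶜ ≤ μ.real {x | t ≤ f x} := by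
    refine measureReal_mono (fun x hx => ?_) (measure_ne_top _ _)
    have hx' : ¬ f x ≤ t := hx
    exact (not_le.1 hx').le
  rw [probReal_compl_eq_one_sub (measurableSet_le hfm measurable_const)] at h2
  nlinarith

/-- the number of sets of size `m` -/
theorem choose_mul_le {N m : ℕ} (hN : 0 < N) (hm : 1 ≤ m) :
    (N.choose m : ℝ) * ((m : ℝ) / (6 * N)) ^ m ≤ 1 / 2 := by
  have hN' : (0 : ℝ) < N := by exact_mod_cast hN
  have h1 : (N.choose m : ℝ) ≤ (N : ℝ) ^ m / m.factorial := Nat.choose_le_pow_div m N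
  have h2 := Real.pow_div_factorial_le_exp (m : ℝ) (Nat.cast_nonneg m) m
  have h3 : Real.exp m = Real.exp 1 ^ m := by rw [← Real.exp_nat_mul, mul_one]
  have h4 := Real.exp_one_lt_d9
  calc (N.choose m : ℝ) * ((m : ℝ) / (6 * N)) ^ m
      ≤ (N : ℝ) ^ m / m.factorial * ((m : ℝ) / (6 * N)) ^ m :=
        mul_le_mul_of_nonneg_right h1 (by positivity)
    _ = (m : ℝ) ^ m / m.factorial * (1 / 6) ^ m := by
        rw [div_pow, mul_pow, div_pow, one_pow]
        field_simp
    _ ≤ Real.exp 1 ^ m * (1 / 6) ^ m := by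
        rw [← h3]
        exact mul_le_mul_of_nonneg_right h2 (by positivity)
    _ = (Real.exp 1 * (1 / 6)) ^ m := by rw [mul_pow]
    _ ≤ (1 / 2) ^ m := pow_le_pow_left₀ (by positivity) (by linarith) m
    _ ≤ (1 / 2) ^ 1 := pow_le_pow_of_le_one (by norm_num) (by norm_num) hm
    _ = 1 / 2 := pow_one _

end Vale.Agent.N064B
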