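import Vale.Agent.N064.Iter
import Vale.Agent.N064B.Defs

/-!
P064 (helper70): the uniform distribution on `[0,1]^X` split according to the set of coordinates
below `w`.
-/

set_option linter.all false

namespace Vale.Agent.N064B

open Finset MeasureTheory Vale.Agent.P064

/-- rescale to `[0,w]` -/
noncomputable def lo (w : unitInterval) (η : unitInterval) : unitInterval := w * η

/-- rescale to `[w,1]` -/
noncomputable def hi (w : unitInterval) (η : unitInterval) : unitInterval :=
  ⟨w + (1 - w) * η, by
    have h1 := w.2.1
    have h2 := w.2.2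
    have h3 := η.2.1
    have h4 := η.2.2
    constructor <;> nlinarith⟩

theorem lo_val (w η : unitInterval) : (lo w η : ℝ) = w * η := rfl

theorem hi_val (w η : unitInterval) : (hi w η : ℝ) = w + (1 - w) * η := rfl

theorem measurable_lo (w : unitInterval) : Measurable (lo w) := by
  apply Measurable.subtype_mk
  exact (measurable_subtype_coe).const_mul _

theorem measurable_hi (w : unitInterval) : Measurable (hi w) := by
  apply Measurable.subtype_mk
  exact ((measurable_subtype_coe).const_mul _).const_add _

theorem vol_one (w : unitInterval) (h0 : (0 : ℝ) < w) (h1 : (w : ℝ) < 1) :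
    (volume : Measure unitInterval) = ENNReal.ofReal w • Measure.map (lo w) volume +
      ENNReal.ofReal (1 - w) • Measure.map (hi w) volume := by
  refine Measure.ext_of_Iic _ _ fun t => ?_
  rw [Measure.add_apply, Measure.smul_apply, Measure.smul_apply,
    Measure.map_apply (measurable_lo w) measurableSet_Iic,
    Measure.map_apply (measurable_hi w) measurableSet_Iic, unitInterval.volume_Iic]
  have ht0 := t.2.1
  have ht1 := t.2.2
  have h2 : (0 : ℝ) < 1 - w := by linarith
  rcases lt_or_ge (t : ℝ) w with h | h
  · have e1 : lo w ⁻¹' Set.Iic t = Set.Iic (⟨t / w, by positivity, by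
        rw [div_le_one h0]; exact h.le⟩ : unitInterval) := by
      ext η
      simp only [Set.mem_preimage, Set.mem_Iic]
      rw [← Subtype.coe_le_coe, ← Subtype.coe_le_coe, lo_val]
      change _ ↔ (η : ℝ) ≤ t / w
      rw [le_div_iff₀ h0, mul_comm]
    have e2 : hi w ⁻¹' Set.Iic t = ∅ := by
      ext η
      simp only [Set.mem_preimage, Set.mem_Iic, Set.mem_empty_iff_false, iff_false, not_le]
      rw [← Subtype.coe_lt_coe, hi_val]
      have := mul_nonneg h2.le η.2.1
      linarith
    rw [e1, e2, unitInterval.volume_Iic, measure_empty, smul_zero, add_zero, smul_eq_mul,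
      ← ENNReal.ofReal_mul h0.le]
    congr 1
    change (t : ℝ) = w * (t / w)
    field_simp
  · have e1 : lo w ⁻¹' Set.Iic t = Set.univ := by
      ext η
      simp only [Set.mem_preimage, Set.mem_Iic, Set.mem_univ, iff_true]
      rw [← Subtype.coe_le_coe, lo_val]
      have := η.2.2
      nlinarith
    have e2 : hi w ⁻¹' Set.Iic t = Set.Iic (⟨(t - w) / (1 - w),
        div_nonneg (by linarith) h2.le, by
        rw [div_le_one h2]; linarith⟩ : unitInterval) := by
      ext η
      simp only [Set.mem_preimage, Set.mem_Iic]
      rw [← Subtype.coe_le_coe, ← Subtype.coe_le_coe, hi_val]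
      change _ ↔ (η : ℝ) ≤ (t - w) / (1 - w)
      rw [le_div_iff₀ h2]
      constructor <;> intro h' <;> linarith
    rw [e1, e2, unitInterval.volume_Iic, measure_univ, smul_eq_mul, smul_eq_mul, mul_one,
      ← ENNReal.ofReal_mul h2.le, ← ENNReal.ofReal_add h0.le
        (mul_nonneg h2.le (div_nonneg (by linarith) h2.le))]
    congr 1
    change (t : ℝ) = w + (1 - w) * ((t - w) / (1 - w))
    field_simp
    ring

variable {X : Type*} [Fintype X] [DecidableEq X]

/-- rescale the coordinates in `W` to `[0,w]`, the others to `[w,1]` -/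
noncomputable def phi (w : unitInterval) (W : Finset X) (η : X → unitInterval) :
    X → unitInterval := fun x => if x ∈ W then lo w (η x) else hi w (η x)

theorem measurable_phi (w : unitInterval) (W : Finset X) : Measurable (phi w W) := by
  refine measurable_pi_lambda _ fun x => ?_
  unfold phi
  split_ifs
  · exact (measurable_lo w).comp (measurable_pi_apply x)
  · exact (measurable_hi w).comp (measurable_pi_apply x)

theorem vol_split (w : unitInterval) (h0 : (0 : ℝ) < w) (h1 : (w : ℝ) < 1) :
    (volume : Measure (X → unitInterval)) =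
      ∑ W : Finset X, ENNReal.ofReal (wtS (w : ℝ) univ W) • Measure.map (phi w W) volume := by
  rw [volume_pi]
  refine Measure.pi_eq fun s hs => ?_
  rw [Measure.coe_finset_sum, Finset.sum_apply]
  have h2 : (0 : ℝ) ≤ 1 - w := by linarith
  have e1 : ∀ W : Finset X,
      (ENNReal.ofReal (wtS (w : ℝ) univ W) • Measure.map (phi w W)
        (Measure.pi fun _ : X => (volume : Measure unitInterval))) (Set.univ.pi s) =
      (∏ x ∈ W, ENNReal.ofReal w * volume (lo w ⁻¹' s x)) *
        ∏ x ∈ univ \ W, ENNReal.ofReal (1 - w) * volume (hi w ⁻¹' s x) := by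
    intro W
    rw [Measure.smul_apply, Measure.map_apply (measurable_phi w W) (MeasurableSet.univ_pi hs)]
    have e2 : phi w W ⁻¹' Set.univ.pi s =
        Set.univ.pi fun x => if x ∈ W then lo w ⁻¹' s x else hi w ⁻¹' s x := by
      ext η
      simp only [Set.mem_preimage, Set.mem_univ_pi]
      refine forall_congr' fun x => ?_
      unfold phi
      split_ifs <;> rfl
    rw [e2, Measure.pi_pi, smul_eq_mul]
    unfold wtS
    rw [ENNReal.ofReal_prod_of_nonneg (fun x _ => by split_ifs <;> linarith),
      ← Finset.prod_mul_distrib, ← Finset.prod_sdiff (subset_univ W), mul_comm]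
    congr 1
    · refine Finset.prod_congr rfl fun x hx => ?_
      rw [if_pos hx, if_pos hx]
    · refine Finset.prod_congr rfl fun x hx => ?_
      rw [if_neg (mem_sdiff.1 hx).2, if_neg (mem_sdiff.1 hx).2]
  rw [Finset.sum_congr rfl fun W _ => e1 W, ← Finset.powerset_univ, ← Finset.prod_add]
  refine Finset.prod_congr rfl fun x _ => ?_
  conv_rhs => rw [vol_one w h0 h1]
  rw [Measure.add_apply, Measure.smul_apply, Measure.smul_apply,
    Measure.map_apply (measurable_lo w) (hs x), Measure.map_apply (measurable_hi w) (hs x)]
  rfl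

theorem integrable_bdd {α : Type*} [MeasurableSpace α] (μ : Measure α) [IsFiniteMeasure μ]
    {f : α → ℝ} (hf : Measurable f) {B : ℝ} (hB : ∀ a, |f a| ≤ B) : Integrable f μ :=
  Integrable.of_bound hf.aestronglyMeasurable B (Filter.Eventually.of_forall hB)

theorem integral_split (w : unitInterval) (h0 : (0 : ℝ) < w) (h1 : (w : ℝ) < 1)
    {f : (X → unitInterval) → ℝ} (hf : Measurable f) {B : ℝ} (hB : ∀ a, |f a| ≤ B) :
    ∫ ξ, f ξ = ES (w : ℝ) univ fun W : Finset X => ∫ η, f (phi w W η) := by
  conv_lhs => rw [vol_split w h0 h1]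
  rw [integral_finsetSum_measure]
  · unfold ES
    rw [Finset.powerset_univ]
    refine Finset.sum_congr rfl fun W _ => ?_
    rw [integral_smul_measure, integral_map (measurable_phi w W).aemeasurable
      hf.aestronglyMeasurable, ENNReal.toReal_ofReal (wtS_nonneg h0.le h1.le _ _), smul_eq_mul]
  · intro W _
    exact (integrable_bdd _ hf hB).smul_measure ENNReal.ofReal_ne_top

end Vale.Agent.N064B
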